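import Vale.Agent.P066.Theta.Uncond
import Vale.Agent.P066.Theta.H615.Ring

/-!
# The finite quiver theorem (statement consumed by the joint step)

`m` ordered vertices, `a i j` arrows with `a i j = 0` for `i < j`, `a i i ∈ {0, 1}`; in the quantum
torus with `ω(i, j) = a j i - a i j` (so `ω(i, j) ≥ 0` for `i < j`) the ordered product
`E(x_1) E(x_2) ⋯ E(x_m)` is factored according to the sign of a linear form `th`.
If `ω` vanishes on `{th = 0}`, the middle factor is a product of series `E_e(v^j x^c)`.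
-/

set_option autoImplicit false

open Finset

namespace Vale.Agent.P066.Theta

noncomputable section

/-- The skew form `ω(i, j) = a j i - a i j`. -/
def quivB {m : ℕ} (a : Fin m → Fin m → ℕ) : Matrix (Fin m) (Fin m) ℤ :=
  fun i j => (a j i : ℤ) - (a i j : ℤ)

/-- `E_e(v^j x^c) = ∑_n epsCoeff e n v^{jn} x^{n c}` (for `c ≠ 0`). -/
def unitQ {r : ℕ} (B : Matrix (Fin r) (Fin r) ℤ) (e : Bool) (j : ℤ) (c : Fin r →₀ ℕ) :
    QSeries B :=
  fun γ => ∑ n ∈ range (deg γ + 1), if n • c = γ then epsCoeff e n * v ^ (j * (n : ℤ)) else 0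

/-- The ordered product `E(x_1) E(x_2) ⋯ E(x_m)`. -/
def quivProd {m : ℕ} (a : Fin m → Fin m → ℕ) (e : Fin m → Bool) : QSeries (quivB a) :=
  (List.ofFn fun i : Fin m => unitQ (quivB a) (e i) 0 (Finsupp.single i 1)).prod

/-- The finite quiver theorem. -/
def QuiverTheorem : Prop :=
  ∀ (m : ℕ) (a : Fin m → Fin m → ℕ) (e : Fin m → Bool),
    (∀ i j, i < j → a i j = 0) → (∀ i, a i i = if e i then 1 else 0) →
    ∀ th : Fin m → ℤ,
      (∀ d d' : Fin m →₀ ℕ, wt th d = 0 → wt th d' = 0 →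
        omega (quivB a) (toZ d) (toZ d') = 0) →
      ∀ Ap A0 Am : QSeries (quivB a), IsTriple (quivProd a e) Ap A0 Am th →
        ∀ D : ℕ, ∃ l : List (Bool × ℤ × (Fin m →₀ ℕ)),
          (∀ u ∈ l, u.2.2 ≠ 0 ∧ wt th u.2.2 = 0) ∧
          ∀ γ, deg γ ≤ D →
            A0 γ = (l.map fun u => unitQ (quivB a) u.1 u.2.1 u.2.2).prod γ

end

end Vale.Agent.P066.Theta
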