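import Vale.Agent.P066.Theta.H747.Subst

/-!
# Rank two lattices with a nondegenerate form; primitive vectors
-/

set_option autoImplicit false

open Finset

namespace Vale.Agent.P066.Theta

namespace H747

noncomputable section

open QSeries

variable {r : ℕ} {B : Matrix (Fin r) (Fin r) ℤ}

/-- `Λ` has rank two, is saturated, and `ω` is nondegenerate on it. -/
structure Plane (B : Matrix (Fin r) (Fin r) ℤ) (Λ : AddSubgroup (Fin r → ℤ)) : Prop where
  skew : B.transpose = -B
  rank : ∀ x ∈ Λ, ∀ y ∈ Λ, ∀ z ∈ Λ, ∃ a b c : ℤ, (a ≠ 0 ∨ b ≠ 0 ∨ c ≠ 0) ∧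
        a • x + b • y + c • z = 0
  sat : ∀ (x : Fin r → ℤ) (n : ℤ), n ≠ 0 → n • x ∈ Λ → x ∈ Λ
  nondeg : ∃ x ∈ Λ, ∃ y ∈ Λ, omega B x y ≠ 0

/-- `b` is primitive. -/
def Prim (b : Fin r →₀ ℕ) : Prop := ∀ (n : ℕ) (c : Fin r →₀ ℕ), n • c = b → n = 1

theorem Prim.ne_zero {b : Fin r →₀ ℕ} (h : Prim b) : b ≠ 0 := by
  rintro rfl
  have := h 0 0 (by simp)
  omega

theorem smul_vec_eq_zero {a : ℤ} {x : Fin r → ℤ} (ha : a ≠ 0) (h : a • x = 0) : x = 0 := by
  funext i
  have := congrFun h i
  simp only [Pi.smul_apply, smul_eq_mul, Pi.zero_apply, mul_eq_zero] at this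
  exact this.resolve_left ha

/-- The Plücker relation in a lattice of rank two. -/
theorem Plane.plucker {Λ : AddSubgroup (Fin r → ℤ)} (h : Plane B Λ) {x y z : Fin r → ℤ}
    (hx : x ∈ Λ) (hy : y ∈ Λ) (hz : z ∈ Λ) :
    omega B y z • x + omega B z x • y + omega B x y • z = 0 := by
  obtain ⟨a, b, c, hne, he⟩ := h.rank x hx y hy z hz
  have key : ∀ w : Fin r → ℤ, a * omega B x w + b * omega B y w + c * omega B z w = 0 := by
    intro w
    have : omega B (a • x + b • y + c • z) w = omega B 0 w := by rw [he]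
    rwa [omega_add_left, omega_add_left, omega_smul_left, omega_smul_left, omega_smul_left,
      omega_zero_left] at this
  have h1 := key x
  have h2 := key y
  have h3 := key z
  rw [omega_self h.skew] at h1 h2 h3
  have s1 := omega_swap h.skew y x
  have s2 := omega_swap h.skew x z
  have s3 := omega_swap h.skew z y
  rw [s1] at h1
  rw [s3] at h2
  rw [s2] at h3
  have hi : ∀ i, a * x i + b * y i + c * z i = 0 := by
    intro i
    have := congrFun he i
    simpa using this
  have goal : ∀ i, omega B y z * x i + omega B z x * y i + omega B x y * z i = 0 := by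
    intro i
    have e := hi i
    rcases hne with ha | hb | hc
    · have : a * (omega B y z * x i + omega B z x * y i + omega B x y * z i) = 0 := by
        linear_combination omega B y z * e - (y i) * h3 + (z i) * h2
      exact (mul_eq_zero.1 this).resolve_left ha
    · have : b * (omega B y z * x i + omega B z x * y i + omega B x y * z i) = 0 := by
        linear_combination omega B z x * e + (x i) * h3 - (z i) * h1
      exact (mul_eq_zero.1 this).resolve_left hb
    · have : c * (omega B y z * x i + omega B z x * y i + omega B x y * z i) = 0 := by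
        linear_combination omega B x y * e - (x i) * h2 + (y i) * h1
      exact (mul_eq_zero.1 this).resolve_left hc
  funext i
  simpa using goal i

theorem Plane.exists_ne {Λ : AddSubgroup (Fin r → ℤ)} (h : Plane B Λ) {b : Fin r → ℤ}
    (hb : b ∈ Λ) (hb0 : b ≠ 0) : ∃ e ∈ Λ, omega B b e ≠ 0 := by
  obtain ⟨x, hx, y, hy, hxy⟩ := h.nondeg
  by_contra hn
  push Not at hn
  have h1 := h.plucker hx hy hb
  rw [omega_swap h.skew y b, hn x hx, hn y hy, neg_zero, zero_smul, zero_smul, zero_add,
    zero_add] at h1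
  exact hb0 (smul_vec_eq_zero hxy h1)

/-- Two vectors orthogonal to a nonzero one are orthogonal. -/
theorem Plane.omega_eq_zero {Λ : AddSubgroup (Fin r → ℤ)} (h : Plane B Λ) {x y b : Fin r → ℤ}
    (hx : x ∈ Λ) (hy : y ∈ Λ) (hb : b ∈ Λ) (hb0 : b ≠ 0) (h1 : omega B x b = 0)
    (h2 : omega B y b = 0) : omega B x y = 0 := by
  have h3 := h.plucker hx hy hb
  rw [omega_swap h.skew b x, h1, h2, neg_zero, zero_smul, zero_smul, zero_add, zero_add] at h3
  by_contra hn
  exact hb0 (smul_vec_eq_zero hn h3)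

/-- If `k δ = l b` with `b` primitive then `δ` is a multiple of `b`. -/
theorem Prim.eq_nsmul {b δ : Fin r →₀ ℕ} (hb : Prim b) {k l : ℕ} (hk : k ≠ 0)
    (h : k • δ = l • b) : ∃ n : ℕ, n • b = δ := by
  have hg : 0 < Nat.gcd k l := Nat.gcd_pos_of_pos_left _ (Nat.pos_of_ne_zero hk)
  obtain ⟨k', l', hcop, hk', hl'⟩ := Nat.exists_coprime k l
  generalize Nat.gcd k l = g at hk' hl' hg
  have hi : ∀ i, k' * δ i = l' * b i := by
    intro i
    have := DFunLike.congr_fun h i
    simp only [Finsupp.smul_apply, smul_eq_mul] at this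
    rw [hk', hl', mul_right_comm, mul_right_comm l'] at this
    exact Nat.eq_of_mul_eq_mul_right hg this
  have hdiv : ∀ i, k' ∣ b i := fun i =>
    hcop.dvd_of_dvd_mul_left (Dvd.intro _ (hi i))
  have hk1 : k' = 1 := by
    refine hb k' (Finsupp.equivFunOnFinite.symm fun i => b i / k') ?_
    ext i
    simp only [Finsupp.smul_apply, Finsupp.equivFunOnFinite_symm_apply_apply, smul_eq_mul]
    exact Nat.mul_div_cancel' (hdiv i)
  refine ⟨l', ?_⟩
  ext i
  have := hi i
  rw [hk1, one_mul] at this
  simp [this]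

theorem Plane.eq_nsmul {Λ : AddSubgroup (Fin r → ℤ)} (h : Plane B Λ) {b δ : Fin r →₀ ℕ}
    (hb : Prim b) (hbΛ : toZ b ∈ Λ) (hδ : toZ δ ∈ Λ) (h0 : omega B (toZ δ) (toZ b) = 0) :
    ∃ n : ℕ, n • b = δ := by
  have hbz : toZ b ≠ 0 := by
    intro hz
    exact hb.ne_zero (toZ_injective (by rw [hz, toZ_zero]))
  obtain ⟨e, he, hne⟩ := h.exists_ne hbΛ hbz
  have h1 := h.plucker hδ hbΛ he
  rw [h0, zero_smul, add_zero] at h1
  -- ω(b,e) δ + ω(e,δ) b = 0
  obtain ⟨i, hi⟩ : ∃ i, b i ≠ 0 := by
    by_contra hn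
    push Not at hn
    exact hb.ne_zero (by ext i; simpa using hn i)
  set p := omega B (toZ b) e with hp
  set q := omega B e (toZ δ) with hq
  have hall : ∀ k, p * (δ k : ℤ) + q * (b k : ℤ) = 0 := by
    intro k
    have := congrFun h1 k
    simpa [toZ] using this
  have hbi : (0 : ℤ) < (b i : ℤ) := by positivity
  have hδi : (0 : ℤ) ≤ (δ i : ℤ) := by positivity
  rcases lt_or_gt_of_ne hne with hneg | hpos
  · -- p < 0, q ≥ 0
    have hq0 : 0 ≤ q := by
      by_contra hc
      push Not at hc
      have := hall i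
      nlinarith
    refine hb.eq_nsmul (k := (-p).toNat) (l := q.toNat) (by omega) ?_
    ext k
    have := hall k
    simp only [Finsupp.smul_apply, smul_eq_mul]
    zify
    rw [Int.toNat_of_nonneg (by omega), Int.toNat_of_nonneg hq0]
    linarith
  · have hq0 : q ≤ 0 := by
      by_contra hc
      push Not at hc
      have := hall i
      nlinarith
    refine hb.eq_nsmul (k := p.toNat) (l := (-q).toNat) (by omega) ?_
    ext k
    have := hall k
    simp only [Finsupp.smul_apply, smul_eq_mul]
    zify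
    rw [Int.toNat_of_nonneg (by omega), Int.toNat_of_nonneg (by omega)]
    linarith

/-- Two primitive vectors with a common positive multiple are equal. -/
theorem Prim.eq_of_nsmul {b b' : Fin r →₀ ℕ} (hb : Prim b) (hb' : Prim b') {n k : ℕ}
    (hn : n ≠ 0) (h : n • b = k • b') : b = b' := by
  obtain ⟨t, ht⟩ := hb'.eq_nsmul hn h
  have := hb t b' ht
  rw [← ht, this, one_smul]

/-- Every nonzero vector is a positive multiple of a primitive one. -/
theorem exists_prim {γ : Fin r →₀ ℕ} (hγ : γ ≠ 0) :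
    ∃ (n : ℕ) (b : Fin r →₀ ℕ), 0 < n ∧ Prim b ∧ n • b = γ := by
  induction hd : deg γ using Nat.strong_induction_on generalizing γ with
  | _ d ih =>
    by_cases hp : Prim γ
    · exact ⟨1, γ, one_pos, hp, one_smul _ _⟩
    · unfold Prim at hp
      push Not at hp
      obtain ⟨n, c, hnc, hn1⟩ := hp
      have hn0 : n ≠ 0 := by
        rintro rfl
        exact hγ (by rw [← hnc, zero_smul])
      have hc0 : c ≠ 0 := by
        rintro rfl
        exact hγ (by rw [← hnc, smul_zero])
      have hdc : deg c < d := by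
        rw [← hd, ← hnc, deg_nsmul]
        have := deg_pos hc0
        have h2 : 2 ≤ n := by omega
        nlinarith
      obtain ⟨k, b, hk, hb, hkb⟩ := ih _ hdc hc0 rfl
      exact ⟨n * k, b, Nat.mul_pos (Nat.pos_of_ne_zero hn0) hk, hb, by rw [mul_smul, hkb, hnc]⟩

/-- For the chart at `b`: `wt (ω(·, b)) δ = ω(δ, b)`. -/
theorem wt_chart (b δ : Fin r →₀ ℕ) : wt (chartAt B 0 b) δ = omega B (toZ δ) (toZ b) := by
  unfold wt chartAt omega toZ
  refine sum_congr rfl fun i _ => ?_
  rw [Pi.zero_apply, zero_add, Finset.mul_sum]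
  refine sum_congr rfl fun j _ => by ring

end

end H747

end Vale.Agent.P066.Theta
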