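import Vale.Agent.P066.Theta.H747.Subst

/-!
# Series supported on one ray
-/

set_option autoImplicit false

open Finset

namespace Vale.Agent.P066.Theta

namespace H747

noncomputable section

open QSeries

variable {r : ℕ} {B : Matrix (Fin r) (Fin r) ℤ}

/-- The series `∑ φ_n x^{n b}`. -/
def ray (B : Matrix (Fin r) (Fin r) ℤ) (b : Fin r →₀ ℕ) (φ : PowerSeries K) : QSeries B :=
  fun γ => ∑ n ∈ range (deg γ + 1), if n • b = γ then PowerSeries.coeff n φ else 0

theorem ray_nsmul {b : Fin r →₀ ℕ} (hb : b ≠ 0) (φ : PowerSeries K) (n : ℕ) :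
    ray B b φ (n • b) = PowerSeries.coeff n φ := by
  unfold ray
  rw [sum_eq_single n]
  · simp
  · intro k _ hk
    rw [if_neg]
    intro h
    exact hk (nsmul_inj hb h)
  · intro h
    exfalso
    apply h
    rw [mem_range, deg_nsmul]
    have : n * 1 ≤ n * deg b := Nat.mul_le_mul_left _ (deg_pos hb)
    omega

theorem ray_eq_zero {b γ : Fin r →₀ ℕ} (φ : PowerSeries K) (h : ∀ n : ℕ, n • b ≠ γ) :
    ray B b φ γ = 0 := by
  unfold ray
  exact sum_eq_zero fun n _ => if_neg (h n)

theorem ray_ne_zero {b γ : Fin r →₀ ℕ} {φ : PowerSeries K} (h : ray B b φ γ ≠ 0) :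
    ∃ n : ℕ, n • b = γ := by
  by_contra hn
  push Not at hn
  exact h (ray_eq_zero φ hn)

/-- A series with support on the ray of `b` is determined by its values there. -/
theorem eq_ray {b : Fin r →₀ ℕ} (hb : b ≠ 0) {F : QSeries B} (hF : ∀ γ, F γ ≠ 0 → ∃ n : ℕ, n • b = γ) :
    F = ray B b (PowerSeries.mk fun n => F (n • b)) := by
  ext γ
  by_cases h : ∃ n : ℕ, n • b = γ
  · obtain ⟨n, rfl⟩ := h
    rw [ray_nsmul hb, PowerSeries.coeff_mk]
  · rw [ray_eq_zero _ (not_exists.1 h)]
    by_contra hne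
    exact h (hF γ hne)

theorem ray_mul (hB : B.transpose = -B) {b : Fin r →₀ ℕ} (hb : b ≠ 0) (φ ψ : PowerSeries K) :
    ray B b (φ * ψ) = ray B b φ * ray B b ψ := by
  ext γ
  by_cases h : ∃ n : ℕ, n • b = γ
  · obtain ⟨n, rfl⟩ := h
    rw [ray_nsmul hb, PowerSeries.coeff_mul, mul_apply]
    have hinj : Function.Injective fun p : ℕ × ℕ => (p.1 • b, p.2 • b) := by
      intro p q h
      simp only [Prod.mk.injEq] at h
      exact Prod.ext (nsmul_inj hb h.1) (nsmul_inj hb h.2)
    have hsub : (antidiagonal n).map ⟨_, hinj⟩ ⊆ antidiagonal (n • b) := by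
      intro x hx
      rw [mem_map] at hx
      obtain ⟨p, hp, rfl⟩ := hx
      rw [HasAntidiagonal.mem_antidiagonal] at hp
      simp only [Function.Embedding.coeFn_mk, HasAntidiagonal.mem_antidiagonal]
      rw [← add_smul, hp]
    rw [← sum_subset hsub, sum_map]
    · refine sum_congr rfl fun p _ => ?_
      simp only [Function.Embedding.coeFn_mk]
      rw [ray_nsmul hb, ray_nsmul hb, toZ_nsmul, toZ_nsmul, omega_smul_left, omega_smul_right,
        omega_self hB]
      simp
    · rintro ⟨p, q⟩ hpq hn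
      rw [HasAntidiagonal.mem_antidiagonal] at hpq
      by_contra hne
      have h1 : ray B b φ p ≠ 0 := by
        intro h
        apply hne
        show v ^ omega B (toZ p) (toZ q) * ray B b φ p * ray B b ψ q = 0
        rw [h]
        ring
      have h2 : ray B b ψ q ≠ 0 := by
        intro h
        apply hne
        show v ^ omega B (toZ p) (toZ q) * ray B b φ p * ray B b ψ q = 0
        rw [h]
        ring
      obtain ⟨i, rfl⟩ := ray_ne_zero h1
      obtain ⟨k, rfl⟩ := ray_ne_zero h2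
      apply hn
      rw [mem_map]
      refine ⟨(i, k), ?_, rfl⟩
      rw [HasAntidiagonal.mem_antidiagonal]
      simp only [← add_smul] at hpq
      exact nsmul_inj hb hpq
  · have h' := not_exists.1 h
    rw [ray_eq_zero _ h', QSeries.mul_apply_eq_zero]
    intro p q hpq
    by_contra hne
    push Not at hne
    obtain ⟨i, rfl⟩ := ray_ne_zero hne.1
    obtain ⟨k, rfl⟩ := ray_ne_zero hne.2
    exact h' (i + k) (by rw [add_smul, hpq])

theorem ray_one {b : Fin r →₀ ℕ} (hb : b ≠ 0) : ray B b 1 = 1 := by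
  ext γ
  by_cases h : ∃ n : ℕ, n • b = γ
  · obtain ⟨n, rfl⟩ := h
    rw [ray_nsmul hb, PowerSeries.coeff_one, one_apply]
    refine if_congr ?_ rfl rfl
    constructor
    · rintro rfl
      simp
    · intro h
      exact nsmul_inj hb (by rw [h, zero_smul])
  · have h' := not_exists.1 h
    rw [ray_eq_zero _ h', one_apply, if_neg]
    rintro rfl
    exact h' 0 (by simp)

theorem ray_list_prod (hB : B.transpose = -B) {b : Fin r →₀ ℕ} (hb : b ≠ 0)
    (l : List (PowerSeries K)) : ray B b l.prod = (l.map (ray B b)).prod := by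
  induction l with
  | nil => simp [ray_one hb]
  | cons a l ih => rw [List.prod_cons, List.map_cons, List.prod_cons, ray_mul hB hb, ih]

theorem coeff_unitSeries (e : Bool) (j : ℤ) {k : ℕ} (hk : 0 < k) (i : ℕ) :
    PowerSeries.coeff (i * k) (unitSeries (e, j, k)) = epsCoeff e i * v ^ (j * (i : ℤ)) := by
  unfold unitSeries
  rw [PowerSeries.coeff_mk, sum_eq_single i]
  · simp
  · intro i' _ hi'
    rw [if_neg]
    intro h
    exact hi' (Nat.eq_of_mul_eq_mul_right hk h)
  · intro h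
    exfalso
    apply h
    rw [mem_range]
    have : i * 1 ≤ i * k := Nat.mul_le_mul_left _ hk
    omega

theorem coeff_unitSeries_eq_zero (e : Bool) (j : ℤ) (k n : ℕ) (h : ∀ i, i * k ≠ n) :
    PowerSeries.coeff n (unitSeries (e, j, k)) = 0 := by
  unfold unitSeries
  rw [PowerSeries.coeff_mk]
  exact sum_eq_zero fun i _ => if_neg (h i)

theorem ray_unitSeries {b : Fin r →₀ ℕ} (hb : b ≠ 0) (e : Bool) (j : ℤ) {k : ℕ} (hk : 0 < k) :
    ray B b (unitSeries (e, j, k)) = unitQ B e j (k • b) := by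
  have hkb : k • b ≠ 0 := by
    intro h
    have := congrArg deg h
    rw [deg_nsmul, deg_zero] at this
    have h1 := deg_pos hb
    rcases Nat.mul_eq_zero.1 this with h2 | h2 <;> omega
  ext γ
  by_cases h : ∃ n : ℕ, n • b = γ
  · obtain ⟨n, rfl⟩ := h
    rw [ray_nsmul hb]
    by_cases h2 : ∃ i, i * k = n
    · obtain ⟨i, rfl⟩ := h2
      rw [coeff_unitSeries _ _ hk, mul_smul, unitQ_nsmul hkb]
    · have h2' := not_exists.1 h2
      rw [coeff_unitSeries_eq_zero _ _ _ _ h2', unitQ_eq_zero]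
      intro i hi
      rw [smul_smul] at hi
      exact h2' i (nsmul_inj hb hi)
  · have h' := not_exists.1 h
    rw [ray_eq_zero _ h', unitQ_eq_zero]
    intro i hi
    rw [smul_smul] at hi
    exact h' _ hi

/-- The product of units on the ray of `b`. -/
def rayProd (B : Matrix (Fin r) (Fin r) ℤ) (b : Fin r →₀ ℕ) (l : List (Bool × ℤ × ℕ)) : QSeries B :=
  (l.map fun u => unitQ B u.1 u.2.1 (u.2.2 • b)).prod

theorem rayProd_eq (hB : B.transpose = -B) {b : Fin r →₀ ℕ} (hb : b ≠ 0)
    {l : List (Bool × ℤ × ℕ)} (hl : ∀ u ∈ l, 0 < u.2.2) :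
    rayProd B b l = ray B b (l.map unitSeries).prod := by
  unfold rayProd
  rw [ray_list_prod hB hb, List.map_map]
  congr 1
  refine List.map_congr_left fun u hu => ?_
  rw [Function.comp_apply, ← ray_unitSeries hb u.1 u.2.1 (hl u hu)]

theorem posRay_iff (hB : B.transpose = -B) {D : ℕ} {b : Fin r →₀ ℕ} (hb : b ≠ 0) {F : QSeries B} :
    PosRay D b F ↔ ∃ l : List (Bool × ℤ × ℕ), (∀ u ∈ l, 0 < u.2.2) ∧
      ∀ n : ℕ, n * deg b ≤ D → F (n • b) = rayProd B b l (n • b) := by
  constructor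
  · rintro ⟨l, hl, h⟩
    refine ⟨l, hl, fun n hn => ?_⟩
    rw [rayProd_eq hB hb hl, ray_nsmul hb, h n hn]
  · rintro ⟨l, hl, h⟩
    refine ⟨l, hl, fun n hn => ?_⟩
    rw [h n hn, rayProd_eq hB hb hl, ray_nsmul hb]

theorem rayProd_ne_zero (hB : B.transpose = -B) {b : Fin r →₀ ℕ} (hb : b ≠ 0)
    {l : List (Bool × ℤ × ℕ)} (hl : ∀ u ∈ l, 0 < u.2.2) {γ : Fin r →₀ ℕ}
    (h : rayProd B b l γ ≠ 0) : ∃ n : ℕ, n • b = γ := by
  rw [rayProd_eq hB hb hl] at h
  exact ray_ne_zero h

end

end H747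

end Vale.Agent.P066.Theta
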