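import Vale.Agent.P066.Theta.H747.Triple
import Vale.Agent.P066.Theta.H747.QuiverStatement

/-!
# Monomial substitutions `x_i ↦ v^{j_i} x^{c_i}` between quantum tori
-/

set_option autoImplicit false

open Finset

namespace Vale.Agent.P066.Theta

namespace H747

noncomputable section

open QSeries

variable {m r : ℕ} {A : Matrix (Fin m) (Fin m) ℤ} {B : Matrix (Fin r) (Fin r) ℤ}

/-! ### degrees -/

@[simp] theorem deg_zero : deg (0 : Fin r →₀ ℕ) = 0 := by simp [deg]

theorem deg_add (a b : Fin r →₀ ℕ) : deg (a + b) = deg a + deg b := by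
  simp [deg, sum_add_distrib]

theorem deg_nsmul (n : ℕ) (a : Fin r →₀ ℕ) : deg (n • a) = n * deg a := by
  simp [deg, Finset.mul_sum]

theorem deg_mono {a b : Fin r →₀ ℕ} (h : a ≤ b) : deg a ≤ deg b :=
  sum_le_sum fun i _ => h i

theorem deg_eq_zero {a : Fin r →₀ ℕ} : deg a = 0 ↔ a = 0 := by
  constructor
  · intro h
    ext i
    unfold deg at h
    rw [sum_eq_zero_iff] at h
    simpa using h i (mem_univ i)
  · rintro rfl
    simp

theorem deg_pos {a : Fin r →₀ ℕ} (h : a ≠ 0) : 0 < deg a :=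
  Nat.pos_of_ne_zero fun h' => h (deg_eq_zero.1 h')

theorem apply_le_deg (a : Fin r →₀ ℕ) (i : Fin r) : a i ≤ deg a :=
  single_le_sum (f := fun i => a i) (fun _ _ => Nat.zero_le _) (mem_univ i)

theorem deg_lt_of_lt {a b : Fin r →₀ ℕ} (h : a ≤ b) (hne : a ≠ b) : deg a < deg b := by
  refine lt_of_le_of_ne (deg_mono h) fun he => hne ?_
  have h2 : b = a + (b - a) := (add_tsub_cancel_of_le h).symm
  have h3 : deg (b - a) = 0 := by
    have := deg_add a (b - a)
    rw [← h2] at this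
    omega
  rw [deg_eq_zero.1 h3, add_zero] at h2
  exact h2.symm

theorem toZ_nsmul (n : ℕ) (a : Fin r →₀ ℕ) : toZ (n • a) = (n : ℤ) • toZ a := by
  funext i
  simp [toZ]

theorem toZ_injective : Function.Injective (toZ (r := r)) := by
  intro a b h
  ext i
  have := congrFun h i
  simpa [toZ] using this

theorem omega_smul_left (n : ℤ) (x y : Fin r → ℤ) : omega B (n • x) y = n * omega B x y := by
  simp only [omega, Pi.smul_apply, smul_eq_mul, Finset.mul_sum]
  refine sum_congr rfl fun i _ => sum_congr rfl fun j _ => by ring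

theorem omega_smul_right (n : ℤ) (x y : Fin r → ℤ) : omega B x (n • y) = n * omega B x y := by
  simp only [omega, Pi.smul_apply, smul_eq_mul, Finset.mul_sum]
  refine sum_congr rfl fun i _ => sum_congr rfl fun j _ => by ring

/-! ### combinations -/

/-- `∑ d_i c_i`. -/
def comb (c : Fin m → Fin r →₀ ℕ) (d : Fin m →₀ ℕ) : Fin r →₀ ℕ := ∑ i, d i • c i

@[simp] theorem comb_zero (c : Fin m → Fin r →₀ ℕ) : comb c 0 = 0 := by simp [comb]

theorem comb_add (c : Fin m → Fin r →₀ ℕ) (d d' : Fin m →₀ ℕ) :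
    comb c (d + d') = comb c d + comb c d' := by
  simp [comb, add_smul, sum_add_distrib]

theorem comb_nsmul (c : Fin m → Fin r →₀ ℕ) (n : ℕ) (d : Fin m →₀ ℕ) :
    comb c (n • d) = n • comb c d := by
  simp [comb, Finset.smul_sum, mul_smul]

theorem comb_single (c : Fin m → Fin r →₀ ℕ) (i : Fin m) : comb c (Finsupp.single i 1) = c i := by
  classical
  unfold comb
  rw [sum_eq_single i]
  · simp
  · intro b _ hb
    simp [Ne.symm hb]
  · simp

theorem deg_sum {ι : Type*} (s : Finset ι) (f : ι → Fin r →₀ ℕ) :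
    deg (∑ i ∈ s, f i) = ∑ i ∈ s, deg (f i) := by
  classical
  induction s using Finset.induction_on with
  | empty => simp
  | insert a s ha ih => rw [sum_insert ha, sum_insert ha, deg_add, ih]

theorem deg_le_comb {c : Fin m → Fin r →₀ ℕ} (hc : ∀ i, c i ≠ 0) (d : Fin m →₀ ℕ) :
    deg d ≤ deg (comb c d) := by
  unfold comb
  rw [deg_sum]
  unfold deg
  refine sum_le_sum fun i _ => ?_
  show d i ≤ deg (d i • c i)
  rw [deg_nsmul]
  exact Nat.le_mul_of_pos_right _ (deg_pos (hc i))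

theorem wt_comb (Q : Fin r → ℤ) (c : Fin m → Fin r →₀ ℕ) (d : Fin m →₀ ℕ) :
    wt Q (comb c d) = wt (fun i => wt Q (c i)) d := by
  have h : ∀ s : Finset (Fin m), wt Q (∑ i ∈ s, d i • c i) = ∑ i ∈ s, (d i : ℤ) * wt Q (c i) := by
    classical
    intro s
    induction s using Finset.induction_on with
    | empty => simp
    | insert a s ha ih => rw [sum_insert ha, sum_insert ha, wt_add, ih, wt_nsmul]
  exact h univ

theorem toZ_comb (c : Fin m → Fin r →₀ ℕ) (d : Fin m →₀ ℕ) :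
    toZ (comb c d) = ∑ i, (d i : ℤ) • toZ (c i) := by
  have h : ∀ s : Finset (Fin m), toZ (∑ i ∈ s, d i • c i) = ∑ i ∈ s, (d i : ℤ) • toZ (c i) := by
    classical
    intro s
    induction s using Finset.induction_on with
    | empty => simp
    | insert a s ha ih => rw [sum_insert ha, sum_insert ha, toZ_add, ih, toZ_nsmul]
  exact h univ

theorem omega_sum_left {ι : Type*} (s : Finset ι) (f : ι → Fin r → ℤ) (y : Fin r → ℤ) :
    omega B (∑ i ∈ s, f i) y = ∑ i ∈ s, omega B (f i) y := by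
  classical
  induction s using Finset.induction_on with
  | empty => simp
  | insert a s ha ih => rw [sum_insert ha, sum_insert ha, omega_add_left, ih]

theorem omega_sum_right {ι : Type*} (s : Finset ι) (f : ι → Fin r → ℤ) (x : Fin r → ℤ) :
    omega B x (∑ i ∈ s, f i) = ∑ i ∈ s, omega B x (f i) := by
  classical
  induction s using Finset.induction_on with
  | empty => simp
  | insert a s ha ih => rw [sum_insert ha, sum_insert ha, omega_add_right, ih]

/-- If `A i j = ω(c_i, c_j)` then the forms correspond. -/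
theorem omega_comb {c : Fin m → Fin r →₀ ℕ} (hA : ∀ i j, A i j = omega B (toZ (c i)) (toZ (c j)))
    (d d' : Fin m →₀ ℕ) :
    omega A (toZ d) (toZ d') = omega B (toZ (comb c d)) (toZ (comb c d')) := by
  rw [toZ_comb, toZ_comb, omega_sum_left]
  unfold omega
  refine sum_congr rfl fun i _ => ?_
  rw [show (∑ i_1, ∑ j, ((d i : ℤ) • toZ (c i)) i_1 * B i_1 j * (∑ i, (d' i : ℤ) • toZ (c i)) j) =
    omega B ((d i : ℤ) • toZ (c i)) (∑ i, (d' i : ℤ) • toZ (c i)) from rfl, omega_sum_right]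
  refine sum_congr rfl fun j _ => ?_
  rw [omega_smul_left, omega_smul_right, ← hA]
  show (d i : ℤ) * A i j * (d' j : ℤ) = _
  ring

/-! ### fibres -/

/-- Constant exponent. -/
def cap (n : ℕ) : Fin m →₀ ℕ := Finsupp.equivFunOnFinite.symm fun _ => n

open Classical in
/-- The finite fibre `{d | ∑ d_i c_i = δ}`. -/
def fib (c : Fin m → Fin r →₀ ℕ) (δ : Fin r →₀ ℕ) : Finset (Fin m →₀ ℕ) :=
  (Iic (cap (deg δ))).filter fun d => comb c d = δ

theorem mem_fib {c : Fin m → Fin r →₀ ℕ} (hc : ∀ i, c i ≠ 0) {δ : Fin r →₀ ℕ} {d : Fin m →₀ ℕ} :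
    d ∈ fib c δ ↔ comb c d = δ := by
  unfold fib
  rw [mem_filter, mem_Iic]
  refine ⟨fun h => h.2, fun h => ⟨?_, h⟩⟩
  intro i
  show d i ≤ deg δ
  rw [← h]
  exact (apply_le_deg d i).trans (deg_le_comb hc d)

/-! ### the substitution -/

/-- The substitution `x_i ↦ v^{j_i} x^{c_i}`. -/
def subst (c : Fin m → Fin r →₀ ℕ) (j : Fin m → ℤ) (f : QSeries A) : QSeries B :=
  fun δ => ∑ d ∈ fib c δ, v ^ wt j d * f d

theorem subst_apply (c : Fin m → Fin r →₀ ℕ) (j : Fin m → ℤ) (f : QSeries A) (δ : Fin r →₀ ℕ) :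
    (subst c j f : QSeries B) δ = ∑ d ∈ fib c δ, v ^ wt j d * f d := rfl

theorem subst_mul {c : Fin m → Fin r →₀ ℕ} (hc : ∀ i, c i ≠ 0) (j : Fin m → ℤ)
    (hA : ∀ i j, A i j = omega B (toZ (c i)) (toZ (c j))) (f g : QSeries A) :
    (subst c j (f * g) : QSeries B) = subst c j f * subst c j g := by
  ext δ
  have hL : (subst c j (f * g) : QSeries B) δ = ∑ d ∈ fib c δ, ∑ p ∈ antidiagonal d,
      v ^ wt j d * (v ^ omega A (toZ p.1) (toZ p.2) * f p.1 * g p.2) := by
    rw [subst_apply]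
    refine sum_congr rfl fun d _ => ?_
    rw [mul_apply, Finset.mul_sum]
  have hR : ((subst c j f : QSeries B) * (subst c j g : QSeries B) : QSeries B) δ = ∑ p ∈ antidiagonal δ,
      ∑ x ∈ fib c p.1 ×ˢ fib c p.2, v ^ omega B (toZ p.1) (toZ p.2) *
        ((v ^ wt j x.1 * f x.1) * (v ^ wt j x.2 * g x.2)) := by
    rw [mul_apply]
    refine sum_congr rfl fun p _ => ?_
    rw [subst_apply, subst_apply, mul_assoc, sum_mul_sum, ← sum_product', Finset.mul_sum]
  rw [hL, hR, sum_sigma', sum_sigma']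
  refine sum_nbij' (fun ⟨_, a, b⟩ => ⟨(comb c a, comb c b), (a, b)⟩)
    (fun ⟨_, a, b⟩ => ⟨a + b, (a, b)⟩) ?_ ?_ ?_ ?_ ?_
  · rintro ⟨d, a, b⟩ h
    simp only [mem_sigma, HasAntidiagonal.mem_antidiagonal, mem_fib hc] at h
    simp only [mem_sigma, HasAntidiagonal.mem_antidiagonal, mem_product, mem_fib hc, and_true]
    rw [← comb_add, h.2, h.1]
  · rintro ⟨⟨p, q⟩, a, b⟩ h
    simp only [mem_sigma, HasAntidiagonal.mem_antidiagonal, mem_product, mem_fib hc] at h
    simp only [mem_sigma, HasAntidiagonal.mem_antidiagonal, mem_fib hc, and_true]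
    rw [comb_add, h.2.1, h.2.2, h.1]
  · rintro ⟨d, a, b⟩ h
    simp only [mem_sigma, HasAntidiagonal.mem_antidiagonal, mem_fib hc] at h
    obtain ⟨h1, rfl⟩ := h
    rfl
  · rintro ⟨⟨p, q⟩, a, b⟩ h
    simp only [mem_sigma, HasAntidiagonal.mem_antidiagonal, mem_product, mem_fib hc] at h
    obtain ⟨h1, rfl, rfl⟩ := h
    rfl
  · rintro ⟨d, a, b⟩ h
    simp only [mem_sigma, HasAntidiagonal.mem_antidiagonal, mem_fib hc] at h
    obtain ⟨h1, rfl⟩ := h
    show v ^ wt j (a + b) * (v ^ omega A (toZ a) (toZ b) * f a * g b) =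
      v ^ omega B (toZ (comb c a)) (toZ (comb c b)) * ((v ^ wt j a * f a) * (v ^ wt j b * g b))
    rw [← omega_comb hA, wt_add, zpow_add₀ v_ne_zero]
    ring

theorem subst_one {c : Fin m → Fin r →₀ ℕ} (hc : ∀ i, c i ≠ 0) (j : Fin m → ℤ) :
    (subst c j (1 : QSeries A) : QSeries B) = 1 := by
  ext δ
  rw [subst_apply, one_apply]
  split_ifs with h
  · subst h
    rw [sum_eq_single 0]
    · simp
    · intro d _ hd
      simp [one_apply, hd]
    · intro h
      exact absurd ((mem_fib hc).2 (comb_zero c)) h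
  · refine sum_eq_zero fun d hd => ?_
    rw [mem_fib hc] at hd
    have : d ≠ 0 := by
      rintro rfl
      exact h (by rw [← hd, comb_zero])
    simp [one_apply, this]

theorem subst_list_prod {c : Fin m → Fin r →₀ ℕ} (hc : ∀ i, c i ≠ 0) (j : Fin m → ℤ)
    (hA : ∀ i j, A i j = omega B (toZ (c i)) (toZ (c j))) (l : List (QSeries A)) :
    (subst c j l.prod : QSeries B) = (l.map fun f => (subst c j f : QSeries B)).prod := by
  induction l with
  | nil => simp [subst_one hc]
  | cons a l ih => rw [List.prod_cons, List.map_cons, List.prod_cons, subst_mul hc j hA, ih]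

theorem subst_zero_apply {c : Fin m → Fin r →₀ ℕ} (hc : ∀ i, c i ≠ 0) (j : Fin m → ℤ)
    (f : QSeries A) : (subst c j f : QSeries B) 0 = f 0 := by
  rw [subst_apply, sum_eq_single 0]
  · simp
  · intro d hd hne
    rw [mem_fib hc] at hd
    have h1 := deg_le_comb hc d
    rw [hd, deg_zero] at h1
    exact absurd (deg_eq_zero.1 (Nat.le_zero.1 h1)) hne
  · intro h
    exact absurd ((mem_fib hc).2 (comb_zero c)) h

theorem subst_ne_zero {c : Fin m → Fin r →₀ ℕ} (hc : ∀ i, c i ≠ 0) {j : Fin m → ℤ}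
    {f : QSeries A} {δ : Fin r →₀ ℕ} (h : (subst c j f : QSeries B) δ ≠ 0) :
    ∃ d, comb c d = δ ∧ f d ≠ 0 := by
  by_contra hn
  push Not at hn
  apply h
  rw [subst_apply]
  refine sum_eq_zero fun d hd => ?_
  rw [hn d ((mem_fib hc).1 hd), mul_zero]

/-- Substitution is local. -/
theorem subst_congr {c : Fin m → Fin r →₀ ℕ} (hc : ∀ i, c i ≠ 0) (j : Fin m → ℤ)
    {f g : QSeries A} {D : ℕ} (h : ∀ d, deg d ≤ D → f d = g d) {δ : Fin r →₀ ℕ} (hδ : deg δ ≤ D) :
    (subst c j f : QSeries B) δ = (subst c j g : QSeries B) δ := by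
  rw [subst_apply, subst_apply]
  refine sum_congr rfl fun d hd => ?_
  rw [mem_fib hc] at hd
  rw [h d ((deg_le_comb hc d).trans (by rw [hd]; exact hδ))]

theorem subst_isTriple {c : Fin m → Fin r →₀ ℕ} (hc : ∀ i, c i ≠ 0) (j : Fin m → ℤ)
    (hA : ∀ i j, A i j = omega B (toZ (c i)) (toZ (c j))) {g gp g0 gm : QSeries A}
    {Q : Fin r → ℤ} (h : IsTriple g gp g0 gm fun i => wt Q (c i)) :
    IsTriple (subst c j g : QSeries B) (subst c j gp) (subst c j g0) (subst c j gm) Q where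
  gp_zero := by rw [subst_zero_apply hc, h.gp_zero]
  gp_supp := by
    intro γ hγ hne
    obtain ⟨d, rfl, hd⟩ := subst_ne_zero hc hne
    rw [wt_comb]
    refine h.gp_supp d ?_ hd
    rintro rfl
    exact hγ (comb_zero c)
  g0_zero := by rw [subst_zero_apply hc, h.g0_zero]
  g0_supp := by
    intro γ hne
    obtain ⟨d, rfl, hd⟩ := subst_ne_zero hc hne
    rw [wt_comb]
    exact h.g0_supp d hd
  gm_zero := by rw [subst_zero_apply hc, h.gm_zero]
  gm_supp := by
    intro γ hγ hne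
    obtain ⟨d, rfl, hd⟩ := subst_ne_zero hc hne
    rw [wt_comb]
    refine h.gm_supp d ?_ hd
    rintro rfl
    exact hγ (comb_zero c)
  eq := by rw [← subst_mul hc j hA, ← subst_mul hc j hA, ← h.eq]

/-! ### units -/

theorem nsmul_inj {c : Fin r →₀ ℕ} (hc : c ≠ 0) {n k : ℕ} (h : n • c = k • c) : n = k := by
  have := congrArg deg h
  rw [deg_nsmul, deg_nsmul] at this
  exact Nat.eq_of_mul_eq_mul_right (deg_pos hc) this

theorem unitQ_nsmul {c : Fin r →₀ ℕ} (hc : c ≠ 0) (e : Bool) (j : ℤ) (n : ℕ) :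
    unitQ B e j c (n • c) = epsCoeff e n * v ^ (j * (n : ℤ)) := by
  unfold unitQ
  rw [sum_eq_single n]
  · simp
  · intro k _ hk
    rw [if_neg]
    intro h
    exact hk (nsmul_inj hc h)
  · intro h
    exfalso
    apply h
    rw [mem_range, deg_nsmul]
    have : n * 1 ≤ n * deg c := Nat.mul_le_mul_left _ (deg_pos hc)
    omega

theorem unitQ_eq_zero {c γ : Fin r →₀ ℕ} (e : Bool) (j : ℤ) (h : ∀ n : ℕ, n • c ≠ γ) :
    unitQ B e j c γ = 0 := by
  unfold unitQ
  exact sum_eq_zero fun n _ => if_neg (h n)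

theorem subst_unitQ {c : Fin m → Fin r →₀ ℕ} (hc : ∀ i, c i ≠ 0) (j : Fin m → ℤ) (e : Bool)
    (k : ℤ) {d : Fin m →₀ ℕ} (hd : d ≠ 0) :
    (subst c j (unitQ A e k d) : QSeries B) = unitQ B e (k + wt j d) (comb c d) := by
  have hcd : comb c d ≠ 0 := by
    intro h
    have := deg_le_comb hc d
    rw [h, deg_zero] at this
    exact hd (deg_eq_zero.1 (Nat.le_zero.1 this))
  ext δ
  by_cases h : ∃ n : ℕ, n • comb c d = δ
  · obtain ⟨n, rfl⟩ := h
    rw [unitQ_nsmul hcd, subst_apply, sum_eq_single (n • d)]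
    · rw [unitQ_nsmul hd, wt_nsmul, add_mul, zpow_add₀ v_ne_zero, mul_comm (n : ℤ) (wt j d)]
      ring
    · intro d' hd' hne
      rw [unitQ_eq_zero, mul_zero]
      intro n' hn'
      apply hne
      rw [← hn'] at hd' ⊢
      rw [mem_fib hc, comb_nsmul] at hd'
      rw [nsmul_inj hcd hd']
    · intro h
      exfalso
      apply h
      rw [mem_fib hc, comb_nsmul]
  · push Not at h
    rw [unitQ_eq_zero _ _ h, subst_apply]
    refine sum_eq_zero fun d' hd' => ?_
    rw [unitQ_eq_zero, mul_zero]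
    intro n hn
    rw [← hn, mem_fib hc, comb_nsmul] at hd'
    exact h n hd'

end

end H747

end Vale.Agent.P066.Theta
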