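import Vale.Agent.P066.Theta.Uncond
import Vale.Agent.P066.Theta.H615.Chart

/-!
# Triple factorizations: existence and truncated uniqueness
-/

set_option autoImplicit false

open Finset

namespace Vale.Agent.P066.Theta

namespace H747

noncomputable section

open QSeries

variable {r : ℕ} {B : Matrix (Fin r) (Fin r) ℤ}

theorem wt_neg (Q : Fin r → ℤ) (γ : Fin r →₀ ℕ) : wt (-Q) γ = - wt Q γ := by
  simp [wt]

theorem wt_nsmul (Q : Fin r → ℤ) (n : ℕ) (γ : Fin r →₀ ℕ) : wt Q (n • γ) = n * wt Q γ := by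
  simp [wt, Finset.mul_sum, mul_assoc]

theorem IsTriple.mem {g gp g0 gm : QSeries B} {Q : Fin r → ℤ} (h : IsTriple g gp g0 gm Q) :
    gp ∈ supp (B := B) (posSub Q) ∧ g0 ∈ supp (B := B) (leSub Q) ∧
      g0 ∈ supp (B := B) (leSub (-Q)) ∧ gm ∈ supp (B := B) (leSub Q) ∧
      gm ∈ supp (B := B) (posSub (-Q)) := by
  refine ⟨fun γ hγ => ?_, fun γ hγ => ?_, fun γ hγ => ?_, fun γ hγ => ?_, fun γ hγ => ?_⟩
  · by_cases h0 : γ = 0
    · exact Or.inl h0
    · exact Or.inr (h.gp_supp γ h0 hγ)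
  · exact (h.g0_supp γ hγ).le
  · show wt (-Q) γ ≤ 0
    rw [wt_neg, h.g0_supp γ hγ, neg_zero]
  · by_cases h0 : γ = 0
    · rw [h0]; exact (leSub Q).zero_mem
    · exact (h.gm_supp γ h0 hγ).le
  · by_cases h0 : γ = 0
    · exact Or.inl h0
    · right
      rw [wt_neg]
      linarith [h.gm_supp γ h0 hγ]

theorem IsTriple.g_zero {g gp g0 gm : QSeries B} {Q : Fin r → ℤ} (h : IsTriple g gp g0 gm Q) :
    g 0 = 1 := by
  rw [h.eq, mul_zero_apply, mul_zero_apply, h.gp_zero, h.g0_zero, h.gm_zero]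
  simp

theorem exists_isTriple {g : QSeries B} (h0 : g 0 = 1) (Q : Fin r → ℤ) :
    ∃ gp g0 gm : QSeries B, IsTriple g gp g0 gm Q := by
  obtain ⟨gp, g1, hp0, h10, hp, h1, e⟩ := exists_factor (pos_le_disj Q) (pos_or_le Q) g h0
  obtain ⟨g0, gm, h00, hm0, h0', hm, e'⟩ := exists_factor (P := leSub (-Q)) (L := posSub (-Q))
    (fun γ ha hb => pos_le_disj (-Q) γ hb ha) (fun γ => (pos_or_le (-Q) γ).symm) g1 h10
  have hmle : gm ∈ supp (B := B) (leSub Q) := by
    intro γ hγ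
    rcases hm γ hγ with h | h
    · rw [h]; exact (leSub Q).zero_mem
    · rw [wt_neg] at h
      show wt Q γ ≤ 0
      linarith
  have hg0 : g0 ∈ supp (B := B) (leSub Q) := by
    have : g0 = g1 * Ring.inverse gm := by
      rw [e', mul_assoc, Ring.mul_inverse_cancel _ (isUnit_of_one hm0), mul_one]
    rw [this]
    exact Subalgebra.mul_mem _ h1 (inverse_mem_supp hmle (by rw [hm0]; exact one_ne_zero))
  refine ⟨gp, g0, gm, ⟨hp0, ?_, h00, ?_, hm0, ?_, ?_⟩⟩
  · intro γ hγ hne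
    exact (hp γ hne).resolve_left hγ
  · intro γ hne
    have a := hg0 γ hne
    have b := h0' γ hne
    rw [mem_leSub] at a b
    rw [wt_neg] at b
    linarith
  · intro γ hγ hne
    have := (hm γ hne).resolve_left hγ
    rw [wt_neg] at this
    linarith
  · rw [e, e', mul_assoc]

theorem IsTriple.agree {g g' gp g0 gm gp' g0' gm' : QSeries B} {Q : Fin r → ℤ}
    (h : IsTriple g gp g0 gm Q) (h' : IsTriple g' gp' g0' gm' Q) {γ : Fin r →₀ ℕ}
    (hg : Agree γ g g') : Agree γ gp gp' ∧ Agree γ g0 g0' ∧ Agree γ gm gm' := by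
  obtain ⟨a1, a2, a3, a4, a5⟩ := IsTriple.mem h
  obtain ⟨b1, b2, b3, b4, b5⟩ := IsTriple.mem h'
  have k1 := factor_congr (P := posSub Q) (L := leSub Q) (P' := posSub Q) (L' := leSub Q)
    (pos_le_disj Q) γ (fun _ _ => Iff.rfl) (fun _ _ => Iff.rfl) (gp := gp) (gm := g0 * gm)
    (gp' := gp') (gm' := g0' * gm') h.gp_zero h'.gp_zero
    (by simp [mul_zero_apply, h.gp_zero, h.g0_zero, h.gm_zero])
    (by simp [mul_zero_apply, h'.gp_zero, h'.g0_zero, h'.gm_zero])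
    a1 b1 (Subalgebra.mul_mem _ a2 a4) (Subalgebra.mul_mem _ b2 b4)
    (fun δ hδ => by
      rw [← mul_assoc, ← mul_assoc, ← h.eq, ← h'.eq]
      exact hg δ hδ)
  have k2 := factor_congr (P := leSub (-Q)) (L := posSub (-Q)) (P' := leSub (-Q))
    (L' := posSub (-Q)) (fun γ ha hb => pos_le_disj (-Q) γ hb ha) γ (fun _ _ => Iff.rfl)
    (fun _ _ => Iff.rfl) (gp := g0) (gm := gm) (gp' := g0') (gm' := gm') h.g0_zero h'.g0_zero
    (by simp [mul_zero_apply, h.g0_zero, h.gm_zero])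
    (by simp [mul_zero_apply, h'.g0_zero, h'.gm_zero])
    a3 b3 a5 b5 (fun δ hδ => (k1 δ hδ).2)
  exact ⟨fun δ hδ => (k1 δ hδ).1, fun δ hδ => (k2 δ hδ).1, fun δ hδ => (k2 δ hδ).2⟩

end

end H747

end Vale.Agent.P066.Theta
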